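import Vale.Agent.P287D.Gf.One
import Vale.Agent.P287D.Pb.Gd
import Vale.Agent.P287D.Cv.Rr
import Vale.Agent.P287D.Va.Cone

/-!
# P287D, block DP2: rulings, their descent and their uniqueness
-/

set_option linter.unusedSectionVars false

open Set Polynomial IntermediateField

noncomputable section

namespace Vale.Agent.P287D

variable {E E' : Type} [Field E] [Algebra ℂ E] [Field E'] [Algebra ℂ E']
  {L M : IntermediateField ℂ E} {ψ : E →+* E'} {n r : ℕ}

theorem Ruled.cld (h : Ruled L) : Cld L := fun f hf => by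
  obtain ⟨t, ht, e⟩ := h
  let a : RatFunc L ≃ₐ[L] E :=
    (RatFunc.algEquivOfTranscendental t ht).trans ((equivOfEq e).trans topEquiv)
  obtain ⟨g, rfl⟩ := a.surjective f
  by_contra k
  refine RatFunc.transcendental_of_ne_C g ?_ ((isAlgebraic_algHom_iff a.toAlgHom a.injective).1 hf)
  rintro ⟨c, rfl⟩
  exact k (by rw [← RatFunc.algebraMap_eq_C, a.commutes]; exact c.2)

theorem D2.fin_top {k F : Type} [Field k] [Field F] [Algebra k F] {N : IntermediateField k F}
    (e : N = ⊤) : FiniteDimensional N F :=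
  Module.finite_of_finrank_eq_succ (n := 0) (e ▸ IntermediateField.finrank_top)

theorem Ruled.trdeg (h : Ruled L) : Algebra.trdeg L E = 1 := by
  obtain ⟨t, ht, e⟩ := h
  simpa using (P019P.CFld_basis ht (D2.fin_top e)).lift_cardinalMk_eq_trdeg.symm

theorem Ruled.ff (h : Ruled L) (hE : FF E (n + 1)) : FF L n := by
  obtain ⟨m, -, hm⟩ := Gm.ff_sub hE L
  have e := trdeg_add_eq ℂ L (A := E)
  rw [hm.trdeg, hE.trdeg, h.trdeg] at e
  obtain rfl : m = n := by
    have : m + 1 = n + 1 := by exact_mod_cast e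
    omega
  exact hm

namespace D2

theorem nc_of_tr {u : E} (h : Transcendental ℂ u) (a : ℂ) : u ≠ algebraMap ℂ E a :=
  fun e => h (e ▸ isAlgebraic_algebraMap a)

theorem tr_map (h : Ext L ψ) {t : E} (ht : Transcendental L t) : Transcendental ℂ (ψ t) :=
  (Pb.dis_alg h (v := fun _ : Unit => t) (algebraicIndependent_unique_type_iff.2 ht)).transcendental
    ()

/-- an element outside the base is not sent to a constant -/
theorem nc_map (h : Ext L ψ) {t : E} (ht : t ∉ L) (a : ℂ) : ψ t ≠ algebraMap ℂ E' a :=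
  nc_of_tr (tr_map h fun k => ht (h.cld t k)) a

theorem eq_of_le (le : L ≤ M) (hL : FF L n) (hM : FF M n) (c : Cld L) : L = M := by
  refine le_antisymm le fun b hb => c b ?_
  let _ : Algebra L M := (IntermediateField.inclusion le).toAlgebra
  have : IsScalarTower ℂ L M :=
    .of_algebraMap_eq fun c => ((IntermediateField.inclusion le).commutes c).symm
  have : IsScalarTower L M E := .of_algebraMap_eq fun _ => rfl
  have e := trdeg_add_eq ℂ L (A := M)
  rw [hL.trdeg, hM.trdeg] at e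
  have e0 : Algebra.trdeg L M = 0 := by
    refine (Cardinal.add_nat_inj n).1 ?_
    rw [zero_add, add_comm, e]
  have := trdeg_eq_zero_iff.1 e0
  exact (Algebra.IsAlgebraic.isAlgebraic (R := L) (⟨b, hb⟩ : M)).algebraMap (A := E)

/-- a coordinate of the fibre which comes from `E` is a coordinate of `E` -/
theorem ruled_of (h : Ext M ψ) {t : E} (ht : ∀ a, ψ t ≠ algebraMap ℂ E' a) (e : ℂ⟮ψ t⟯ = ⊤) :
    Ruled M := by
  have tr : Transcendental M t := fun k => by
    obtain ⟨a, ha⟩ := h.cst t (h.cld t k)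
    exact ht a ha.symm
  refine ⟨t, tr, eq_top_iff.2 fun x _ => ?_⟩
  by_contra k
  have x0 : x ≠ 0 := fun z => k (z ▸ zero_mem _)
  have h2 : LinearIndependent M⟮t⟯ ![1, x] := (LinearIndependent.pair_iff' one_ne_zero).2
    fun a e => k (by rw [← e, ← Algebra.algebraMap_eq_smul_one]; exact a.2)
  have tr' : Transcendental M (AdjoinSimple.gen M t) := fun z => tr (z.algebraMap (A := E))
  have h1 : LinearIndependent M fun i : ℕ => AdjoinSimple.gen M t ^ i := by
    have := (Polynomial.basisMonomials M).linearIndependent.map'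
      (aeval (AdjoinSimple.gen M t)).toLinearMap
      (LinearMap.ker_eq_bot.2 (transcendental_iff_injective.1 tr'))
    have e : (aeval (AdjoinSimple.gen M t)).toLinearMap ∘ Polynomial.basisMonomials M =
        fun i : ℕ => AdjoinSimple.gen M t ^ i := by
      funext i
      simp
    exact e ▸ this
  have h3 := Pb.dis_gen h (linearIndependent_smul h1 h2)
  have ev : ∀ (i : ℕ) (j : Fin 2), ψ (AdjoinSimple.gen M t ^ i • ![1, x] j) =
      ψ t ^ i * ψ (![1, x] j) := fun i j => by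
    rw [Algebra.smul_def, map_mul, map_pow, map_pow]
    rfl
  have sp : ∀ (p : ℂ[X]) (j : Fin 2), aeval (ψ t) p * ψ (![1, x] j) ∈ Submodule.span ℂ
      ((fun q : ℕ × Fin 2 => ψ (AdjoinSimple.gen M t ^ q.1 • ![1, x] q.2)) '' {q | q.2 = j}) :=
    fun p j => by
      rw [aeval_eq_sum_range, Finset.sum_mul]
      refine sum_mem fun i _ => ?_
      rw [smul_mul_assoc]
      exact Submodule.smul_mem _ _ (Submodule.subset_span ⟨(i, j), rfl, ev i j⟩)
  obtain ⟨p, q, hpq⟩ := (mem_adjoin_simple_iff ℂ (ψ x)).1 (e ▸ mem_top)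
  have q0 : aeval (ψ t) q ≠ 0 := fun z => (map_ne_zero ψ).2 x0 (by rw [hpq, z, div_zero])
  have d := h3.disjoint_span_image (s := {q | q.2 = 0}) (t := {q | q.2 = 1})
    (Set.disjoint_left.2 fun _ a b => absurd (a.symm.trans b) (by decide))
  have a1 := sp p 0
  have a2 := sp q 1
  simp only [Matrix.cons_val_zero, map_one, mul_one, Matrix.cons_val_one] at a1 a2
  rw [hpq, mul_div_cancel₀ _ q0] at a2
  have z := Submodule.disjoint_def.1 d _ a1 a2
  exact (map_ne_zero ψ).2 x0 (by rw [hpq, z, zero_div])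

end D2

open D2

/-- the fibre of a ruling is a rational curve -/
theorem Ruled.coord (h : Ext L ψ) {t : E} (e : adjoin L {t} = ⊤) : ℂ⟮ψ t⟯ = ⊤ := by
  refine eq_top_iff.2 fun x _ => ?_
  have le : Subfield.closure (range ψ ∪ range (algebraMap ℂ E')) ≤ ℂ⟮ψ t⟯.toSubfield := by
    refine Subfield.closure_le.2 ?_
    rintro _ (⟨y, rfl⟩ | ⟨c, rfl⟩)
    · have hy : y ∈ adjoin L {t} := e ▸ mem_top
      obtain ⟨p, q, rfl⟩ := (mem_adjoin_simple_iff L y).1 hy
      have k : ∀ p : L[X], ψ (aeval t p) ∈ ℂ⟮ψ t⟯ := fun p => by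
        rw [aeval_eq_sum_range, map_sum]
        refine sum_mem fun i _ => ?_
        rw [Algebra.smul_def, map_mul, map_pow]
        obtain ⟨c, hc⟩ := h.cst _ (p.coeff i).2
        exact mul_mem (hc ▸ ℂ⟮ψ t⟯.algebraMap_mem c) (pow_mem (mem_adjoin_simple_self ℂ _) i)
      rw [map_div₀]
      exact div_mem (k p) (k q)
    · exact ℂ⟮ψ t⟯.algebraMap_mem c
  exact le (h.gen ▸ Subfield.mem_top x)

theorem Ruled.g0 (k : Ruled L) (h : Ext L ψ) : FF E' 1 ∧ pg E' 1 = 0 := by
  obtain ⟨t, ht, e⟩ := k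
  have e' := Ruled.coord h e
  have hE : FF E' 1 := ⟨fun _ => ψ t, algebraicIndependent_unique_type_iff.2 (tr_map h ht), 
    fin_top (by rw [Cv.range_one, e'])⟩
  exact ⟨hE, Cv.g0_of_coord hE (nc_of_tr (tr_map h ht)) e'⟩

namespace D2

/-- **RULQ**: a conic with an invariant divisor of degree one is a line -/
theorem rulq (g3 : G3) (h : GFd r 1 M ψ) (g : pg E' 1 = 0) {β : BD E} (hβ : pb ψ β ∈ CarZ E')
    (h1 : I1 (pb ψ β) = 1) : Ruled M := by
  classical
  have hE := h.ff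
  have ok : Ok ψ := h.toExt.ok hE
  set S := {f : E | f ≠ 0 ∧ ∀ Q, Hor M Q → 0 ≤ (dv f + β) Q}
  have sec : ∀ f ∈ S, 0 ≤ dv (ψ f) + pb ψ β := fun f hf P => by
    rw [← ok.pb_dv, ← pb_add]
    rcases ok P with k | ⟨Q, k⟩
    · exact (k.pb _).ge
    · rw [k.pb]
      refine mul_nonneg (Int.cast_nonneg k.e_pos.le) (hf.2 Q fun a ha => (k a).2 ?_)
      obtain ⟨c, hc⟩ := h.cst a ha
      exact hc ▸ P.con c
  have le : H0 (pb ψ β) ≤ Submodule.span ℂ (ψ '' S) := fun x hx =>
    (g3 r 1 E E' M ψ h).2.2.1 β x (mem_H0.1 hx)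
  have h2 : h0 (pb ψ β) = 2 := by
    have := Cv.h0_g0 hE g hβ (by rw [h1]; norm_num)
    rw [h1] at this
    exact_mod_cast this
  have key : ∀ x : E', ¬ ψ '' S ⊆ Submodule.span ℂ {x} := fun x k => by
    have := (Submodule.finrank_mono (le.trans (Submodule.span_le.2 k))).trans
      (finrank_span_le_card ({x} : Set E'))
    rw [← h0, h2] at this
    simp at this
  obtain ⟨_, ⟨f₂, m₂, rfl⟩, -⟩ := not_subset.1 (key 0)
  obtain ⟨_, ⟨f₁, m₁, rfl⟩, k⟩ := not_subset.1 (key (ψ f₂))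
  have n₁ : ψ f₁ ≠ 0 := (map_ne_zero ψ).2 m₁.1
  have n₂ : ψ f₂ ≠ 0 := (map_ne_zero ψ).2 m₂.1
  have nc : ∀ a, ψ (f₁ / f₂) ≠ algebraMap ℂ E' a := fun a e => k (Submodule.mem_span_singleton.2
    ⟨a, by rw [Algebra.smul_def, ← e, map_div₀, div_mul_cancel₀ _ n₂]⟩)
  have h5 : mx {1, ψ (f₁ / f₂)} ≤ dv (ψ f₂) + pb ψ β :=
    mx_le ⟨1, by simp, one_ne_zero⟩ fun f hf => by
      rcases Finset.mem_insert.1 hf with rfl | hf
      · exact sec_one.2 (sec _ m₂)
      · rw [Finset.mem_singleton.1 hf]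
        refine Or.inr ?_
        rw [map_div₀, dv_div n₁ n₂, ← add_assoc, sub_add_cancel]
        exact sec _ m₁
  have h6 := Cv.I1_mono hE (mx_mem_Car _) (add_mem (dv_mem_Car _) (CarZ.car hβ)) h5
  rw [Cv.I1_add hE (dv_mem_Car _) (CarZ.car hβ), Cv.I1_dv hE, h1, zero_add, Cv.I1_pair hE nc,
    Nat.cast_le_one] at h6
  have := Cv.cff hE
  have := (P019P.finite_of_notMem nc).2
  have h7 : 0 < Module.finrank ℂ⟮ψ (f₁ / f₂)⟯ E' := Module.finrank_pos
  have h9 := (bot_eq_top_iff_finrank_eq_one (F := ℂ⟮ψ (f₁ / f₂)⟯) (E := E')).2 (by omega)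
  exact ruled_of h.toExt nc (by
    rw [← restrictScalars_bot_eq_self ℂ⟮ψ (f₁ / f₂)⟯, h9, restrictScalars_top])

/-- a subfield with an effective canonical class is sent to the constants of a rational curve -/
theorem cst_of_sec (gd : GD) {F : Type} [Field F] [Algebra ℂ F] (hF : FF F n) {w : F}
    (hw : 0 ≤ cn F n + dv w) (hE : FF E' 1) (g : pg E' 1 = 0) {χ : F →+* E'} (c : Cst χ) (a : F) :
    χ a ∈ range (algebraMap ℂ E') := by
  by_contra k
  set N := adjoin ℂ (range χ)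
  let χ' : F →+* N := χ.codRestrict N fun x => subset_adjoin _ _ ⟨x, rfl⟩
  have c' : Cst χ' := fun z => let ⟨d, hd⟩ := c z; ⟨d, Subtype.ext hd⟩
  have hN : FF N 1 := by
    obtain ⟨m, hm, k'⟩ := Gm.ff_sub hE N
    obtain rfl | rfl : m = 0 ∨ m = 1 := by omega
    · have := trdeg_eq_zero_iff.1 (k'.trdeg.trans Nat.cast_zero)
      exact absurd (Gf.mem_range ((Algebra.IsAlgebraic.isAlgebraic (R := ℂ) (χ' a)).algebraMap
        (A := E'))) k
    · exact k'
  have gen : Subfield.closure (range χ' ∪ range (algebraMap ℂ N)) = ⊤ := by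
    refine eq_top_iff.2 fun ⟨x, hx⟩ _ => ?_
    induction hx using adjoin_induction with
    | mem x hx => obtain ⟨y, rfl⟩ := hx; exact Subfield.subset_closure (Or.inl ⟨y, rfl⟩)
    | algebraMap x => exact Subfield.subset_closure (Or.inr ⟨x, rfl⟩)
    | add x y a b u v => exact add_mem (a := (⟨x, a⟩ : N)) (b := ⟨y, b⟩) (u trivial) (v trivial)
    | inv x a u => exact inv_mem (x := (⟨x, a⟩ : N)) (u trivial)
    | mul x y a b u v => exact mul_mem (a := (⟨x, a⟩ : N)) (b := ⟨y, b⟩) (u trivial) (v trivial)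
  obtain ⟨f, f0, hf⟩ := gd.mov n 1 F N χ' hF hN c' gen
  have ok := c'.ok hF hN
  have h1 : 0 ≤ cn N 1 + dv f + dv (χ' w) := by
    have := pb_nonneg χ' hw
    rw [pb_add, ok.pb_dv] at this
    exact this.trans (add_le_add_left hf _)
  have h2 := Cv.I1_nonneg h1
  rw [Cv.I1_add hN (add_mem (Cv.cn_car hN) (dv_mem_Car _)) (dv_mem_Car _),
    Cv.I1_add hN (Cv.cn_car hN) (dv_mem_Car _), Cv.I1_dv hN, Cv.I1_dv hN, Cv.I1_cn hN,
    Cv.g0_down hN hE g] at h2
  norm_num at h2

/-- **RULU**: uniqueness of the fibration in rational curves -/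
theorem rulu' (gd : GD) (hL : FF L n) (cl : Cld L) {w : L} (hw : 0 ≤ cn L n + dv w)
    (h : Ext M ψ) (hM : FF M n) (hE : FF E' 1) (g : pg E' 1 = 0) : M = L := by
  refine (eq_of_le (fun a ha => ?_) hL hM cl).symm
  by_contra k
  obtain ⟨c, hc⟩ := cst_of_sec gd hL hw hE g (χ := ψ.comp (inc L))
    (fun z => h.cst _ (M.algebraMap_mem z)) ⟨a, ha⟩
  exact nc_map h k c hc.symm

theorem rulu (gd : GD) (hr : Ruled L) {w : L} (hw : 0 ≤ cn L n + dv w)
    (h : GFd n 1 M ψ) (g : pg E' 1 = 0) : M = L :=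
  rulu' gd (hr.ff h.fk) hr.cld hw h.toExt h.fl h.ff g

theorem exists_sec {β : BD E} (h : h0 β ≠ 0) : ∃ w : E, w ≠ 0 ∧ 0 ≤ β + dv w := by
  by_contra! k
  refine h ?_
  have : H0 β = ⊥ := eq_bot_iff.2 fun x hx => by
    by_contra z
    exact k x z (add_comm β _ ▸ (mem_H0.1 hx).resolve_left z)
  rw [h0, this, finrank_bot]

/-- two rulings over a base with `p_g ≠ 0` agree -/
theorem ruled_uniq (gd : GD) (hE : FF E (n + 1)) (hL : Ruled L) (hM : Ruled M) (p : pg L n ≠ 0) :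
    M = L := by
  obtain ⟨w, -, hw⟩ := exists_sec p
  obtain ⟨E', _, _, ψ, h⟩ := gen_ex _ E hE M hM.cld
  exact rulu gd hL hw ⟨h, hE, hM.ff hE⟩ (hM.g0 h.toExt).2

/-- a ruled field has no section of the canonical class -/
theorem not_sec_of_ruled (gd : GD) (hE : FF E (n + 1)) (hL : Ruled L) (w : E) :
    ¬ 0 ≤ cn E (n + 1) + dv w := fun hw => by
  obtain ⟨E', _, _, ψ, h⟩ := gen_ex _ E hE L hL.cld
  obtain ⟨a, b⟩ := hL.g0 h.toExt
  obtain ⟨t, ht, -⟩ := hL
  obtain ⟨c, hc⟩ := cst_of_sec gd hE hw a b (fun z => h.cst _ (L.algebraMap_mem z)) t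
  exact nc_of_tr (tr_map h.toExt ht) c hc.symm

theorem IsS.nonneg {d : ℕ} {H : BD E} {f : E} (h : IsS d E H f) : 0 ≤ cn E 2 + dv f := fun P => by
  by_cases k : On 1 H P
  · exact (h.on P k).ge
  · exact zero_le_one.trans (h.exc P k)

end D2

end Vale.Agent.P287D
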