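import Vale.Agent.P287D.D2.Cv
import Vale.Agent.P287D.C3.St
import Vale.Agent.P287D.Sc.Sur

/-!
# P287D, row CB3: elementary transformations of conic bundles
-/

set_option linter.unusedSectionVars false

open Set

noncomputable section

namespace Vale.Agent.P287D.D2

open In

variable {K K' : Type} [Field K] [Algebra ℂ K] [Field K'] [Algebra ℂ K']
  {L : IntermediateField ℂ K} {φ : K →+* K'} {Λ Y G ε : BD K} {R : BD L} {P F : Pl K} {D : Pl L}

/-- horizontal places are prime divisors of a conic bundle -/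
theorem on_hor (g : GFd 3 1 L φ) (s : Smp R) (b : Big R) (d : Dsc Λ (pb (inc L) R))
    (h : Hor L P) : On 3 Λ P := by
  obtain ⟨x, l⟩ := (g2 3 1 K K' L φ g).2.2.1 P h
  exact (((Api.g6 3 1 K K' L φ g R s b).2.2.2 Λ d.smp d).2.2 0 x P rfl l).1 (Cv.on0 _ x)

theorem deg_can (g : GFd 3 1 L φ) (s : Smp R) (b : Big R) (d : Dsc Y (pb (inc L) R))
    (t : Term 3 Y G) : -2 ≤ I1 (pb φ G) := by
  obtain ⟨f, -, e⟩ := g4 3 1 _ _ _ φ g
  have e1 : pb φ G = cn K' 1 - dv f := by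
    rw [e, add_sub_cancel_right]
    exact g.pb_eq.2 fun Q q => t.hull.2 Q (on_hor g s b d q)
  rw [e1, Cv.I1_sub g.ff (Cv.cn_car g.ff) (dv_mem_Car f), Cv.I1_dv g.ff, Cv.I1_cn g.ff]
  have : (0 : ℝ) ≤ pg K' 1 := Nat.cast_nonneg _
  linarith

/-- the degree of the canonical class on a fibre with two components -/
theorem fib_deg (g : GFd 3 1 L φ) (s : Smp R) (d : Dsc Y (pb (inc L) R))
    (t : Term 3 Y G) {β : BD L} (dβ : Dsc R β) (z : ∀ v, On 2 R v → v ≠ D → β v = 0)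
    (ne : P ≠ F) (e : ∀ Q, On 3 Y Q → Q ≠ P → Q ≠ F → pb (inc L) β Q = 0) :
    pb (inc L) β P * cf P ![G, pb (inc L) R, pb (inc L) R] +
      pb (inc L) β F * cf F ![G, pb (inc L) R, pb (inc L) R] =
        β D * vol 2 (res D R) * I1 (pb φ G) := by
  have hK : FF K 4 := g.fk
  have ok := hK.ok_sub L
  have c : ∀ i, Dsc Y (![G, pb (inc L) R, pb (inc L) R] i) := fun i => by
    fin_cases i
    exacts [t.hull.1, d, d]
  have h1 := hy.cons_trace hK t.smp c (Z := pb (inc L) β)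
    (Z' := pb (inc L) β P • P.δ + pb (inc L) β F • F.δ) fun Q q => by
      rw [Pi.add_apply, Pi.smul_apply, Pi.smul_apply, smul_eq_mul, smul_eq_mul]
      by_cases k : Q = P
      · rw [k, Pl.δ_self, Pl.δ_ne ne, mul_one, mul_zero, add_zero]
      by_cases k' : Q = F
      · rw [k', Pl.δ_self, Pl.δ_ne ne.symm, mul_one, mul_zero, zero_add]
      · rw [Pl.δ_ne k, Pl.δ_ne k', mul_zero, mul_zero, add_zero, e Q q k k']
  rw [hy.cons_add hK (IsB.smul (isB_δ P) _) (IsB.smul (isB_δ F) _) fun i => (c i).car, cons_smul,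
    cons_smul, I_δ, I_δ] at h1
  have h2 := hy.swap hK (ok.car dβ.car) t.hull.1.car (c := ![pb (inc L) R, pb (inc L) R])
    fun i => by fin_cases i <;> exact d.car
  have h3 := Api.g5 3 1 K K' L φ g ![G] ![β, R, R] (fun i e => (e (by omega)).elim) fun i => by
    fin_cases i
    exacts [dβ.car, s.car, s.car]
  have e2 : (fun i => pb φ (![G] i)) = ![pb φ G] := by
    funext i; fin_cases i; rfl
  have e3 : (ap 1 ![G] fun j => pb (inc L) (![β, R, R] j)) = Fin.cons G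
      (Fin.cons (pb (inc L) β) ![pb (inc L) R, pb (inc L) R]) := by
    funext i; fin_cases i <;> rfl
  have h4 := hy.cons_trace g.fl s (b := fun _ : Fin 2 => R) (fun _ => .refl s) (Z := β)
    (Z' := β D • D.δ) fun v q => by
      rw [Pi.smul_apply, smul_eq_mul]
      by_cases k : v = D
      · rw [k, Pl.δ_self, mul_one]
      · rw [Pl.δ_ne k, mul_zero, z v q k]
  have e4 : (Fin.cons β fun _ : Fin 2 => R : Fin 3 → BD L) = ![β, R, R] := by
    funext i; fin_cases i <;> rfl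
  rw [cons_smul, I_δ, e4] at h4
  rw [e2, e3, h4] at h3
  exact h1.symm.trans (h2.trans h3)

theorem one_of {e k n : ℕ} (h : e * k * n = 1) : k = 1 ∧ n = 1 :=
  ⟨Nat.eq_one_of_mul_eq_one_left (Nat.eq_one_of_mul_eq_one_right h),
    Nat.eq_one_of_mul_eq_one_left h⟩

/-- **TWO** -/
theorem two_of (hT : Mm.TRM) (vq : C3.VQ) : C3.TWO := by
  refine ⟨0, fun d _ S hS K _ _ hK hF R A Λ B Γ E h dR i j P F _ eP eF ⟨L₀, s₀, r₀⟩ => ?_⟩
  by_cases ne : P = F
  · exact ne ▸ ⟨L₀, s₀, r₀⟩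
  obtain ⟨R₀, s, b, p⟩ := fld_down hK h.smp
  have hL : FF (fld R) 3 := dR ▸ ff_fld hK R
  have p' : pb (inc (fld R)) R₀ - R ∈ Prn K := by simpa using neg_mem p
  obtain ⟨K', _, _, φ, g₀⟩ := gen_ex _ _ hK _ (cld_fld R)
  have g : GFd 3 1 (fld R) φ := ⟨g₀, hK, hL⟩
  obtain ⟨-, Y, G, x⟩ := h.ext i P eP
  have a := ((h.ext j F eF).1).congr p'
  have dΛ : ∀ i, Dsc (Λ i) (pb (inc (fld R)) R₀) := fun i =>
    ((h.mfs i).des.trans (h.down i)).congr p'
  have dY := x.des.trans (dΛ i)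
  have zY : ∀ Q, On 3 Y Q ↔ dsc 4 (R - A) Q = 0 := fun Q => by
    rw [x.on, h.zero i, eP, Option.some_inj, eq_comm]
  have jY : ∀ Q, On 3 Y Q ↔ On 3 (Λ j) Q ∨ F = Q := fun Q => by
    rw [zY, h.zero j, eF, Option.some_inj]
  have oP : On 3 Y P := (x.on P).2 (Or.inr rfl)
  have oF : On 3 Y F := (jY F).2 (Or.inr rfl)
  have jP := ((jY P).1 oP).resolve_right (Ne.symm ne)
  obtain ⟨ε, -, u⟩ := (h.mfs j).qf P jP
  obtain ⟨β, D, dβ, rfl, β0, l, oD, βD, z⟩ := vq K hK hF _ _ _ ε _ R₀ P (h.mfs j) hL (cld_fld R)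
    s b a (fun k => x.off (on_hor g s b (dΛ i) k)) jP u
  have l' : Lies (inc (fld R)) F D := by
    obtain ⟨w, l', o⟩ := exists_on_over hL hK (fun _ => rfl) x.smp x.big s b (dΛ i) oD
    rcases (jY w).1 ((x.on w).2 (Or.inl o)) with k | rfl
    · have := u.2 w k
      rw [Pl.δ_ne (fun e : w = P => x.off (e ▸ o)), l'.pb] at this
      exact absurd this (mul_pos (Int.cast_pos.2 l'.e_pos) βD).ne'
    · exact l'
  have eq : ∀ Q, On 3 Y Q → A Q = (R - G) Q := fun Q o => by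
    have := (zY Q).1 o
    rw [dsc, Pi.sub_apply, Pi.sub_apply] at this
    rw [Pi.sub_apply, x.term.hull.2 Q o]
    linarith
  have dR' : Dsc (pb (inc (fld R)) R₀) R := (Dsc.refl h.smp).congr_left p'
  have le : A ≤ R - G := by
    have dd := x.term.hull.1.sub (dY.trans dR')
    obtain ⟨c, -, hc⟩ := dd.exists_add
    have := Api.neg.neg 3 K hK Y (A + (G - R)) c x.term.smp x.term.big
      (add_mem h.nef.car dd.car) (by rw [add_assoc]; exact h.nef.nef.add (hc c le_rfl).nef)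
      fun Q o => by rw [Pi.add_apply, eq Q o, Pi.sub_apply, Pi.sub_apply]; linarith
    rwa [← neg_sub R G, ← sub_eq_add_neg, sub_nonpos] at this
  obtain ⟨-, -, -, oA⟩ := h.top
  have dF := (hK.ok_sub _).dsc dβ
  have F0 := pb_nonneg (inc (fld R)) β0
  have pP : 0 < pb (inc (fld R)) β P := by rw [l.pb]; exact mul_pos (Int.cast_pos.2 l.e_pos) βD
  have pF : 0 < pb (inc (fld R)) β F := by rw [l'.pb]; exact mul_pos (Int.cast_pos.2 l'.e_pos) βD
  obtain ⟨M, k, n, k0, n0, c, i1, -, un⟩ := vert hT hK hL x.term x.qf s dY oP l oD h.nef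
    (oA P ((zY P).1 oP)) dR' le (eq P oP) dF F0 pP
  obtain ⟨M', k', n', k0', n0', c', i2, ru, -⟩ := vert hT hK hL x.term x.qf s dY oF l' oD h.nef
    (oA F ((zY F).1 oF)) dR' le (eq F oF) dF F0 pF
  have q := fib_deg g s dY x.term dβ z ne fun Q o a b => by
    rw [u.2 Q (((jY Q).1 o).resolve_right (Ne.symm b)), Pl.δ_ne a]
  have q2 := deg_can g s b dY x.term
  obtain ⟨e, he⟩ := Int.eq_ofNat_of_zero_le l.e_pos.le
  obtain ⟨e', he'⟩ := Int.eq_ofNat_of_zero_le l'.e_pos.le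
  have e0 : 0 < e := by have := l.e_pos; omega
  have e0' : 0 < e' := by have := l'.e_pos; omega
  rw [c, c', l.pb, l'.pb, he, he', Int.cast_natCast, Int.cast_natCast] at q
  have v : 0 < β D * vol 2 (res D R₀) := mul_pos βD oD
  have w : ((e * k * n + e' * k' * n' : ℕ) : ℝ) ≤ 2 := by
    push_cast
    refine le_of_mul_le_mul_left ?_ v
    nlinarith
  have w' : e * k * n + e' * k' * n' ≤ 2 := by exact_mod_cast w
  have w1 : 0 < e * k * n := by positivity
  have w2 : 0 < e' * k' * n' := by positivity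
  obtain ⟨H, f, is⟩ := hS.isS _ s₀
  obtain rfl := un L₀ f r₀ (IsS.nonneg is)
  obtain ⟨u1⟩ := i1 (one_of (e := e) (n := n) (by omega)).1
  obtain ⟨u2⟩ := i2 (one_of (e := e') (n := n') (by omega)).1
  exact ⟨M', hS.iso _ _ (u1.symm.trans u2) s₀, ru (one_of (e := e') (k := k') (by omega)).2⟩

end Vale.Agent.P287D.D2
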