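import Vale.Agent.P287D.Api.Adj
import Vale.Agent.P287D.On.Fld
import Vale.Agent.P287D.Ea.Cd
import Vale.Agent.P287D.Dp.Rk
import Vale.Agent.P287D.D2.Rul
import Vale.Agent.P287D.Cv.Fld

/-!
# P287D, row CB3: a vertical prime divisor of a terminal conic bundle
-/

set_option linter.unusedSectionVars false

open Set

noncomputable section

namespace Vale.Agent.P287D.D2

open In

/-- the Stein factorisation of a map from a surface field -/
theorem stein {F E : Type} [Field F] [Algebra ℂ F] [Field E] [Algebra ℂ E] {m : ℕ} (hF : FF F 2)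
    (hE : FF E m) (ρ : F →+* E) (lin : ∀ c, ρ (algebraMap ℂ F c) = algebraMap ℂ E c) :
    ∃ (M : IntermediateField ℂ E) (ρ' : F →+* M) (k : ℕ), Cld M ∧ FF M 2 ∧ (inc M).comp ρ' = ρ ∧
      Ok ρ' ∧ 0 < k ∧ (∀ h ∈ Car F, vol 2 (pb ρ' h) = k * vol 2 h) ∧
      (k = 1 → Nonempty (F ≃ₐ[ℂ] M)) := by
  let _ := ρ.toAlgebra
  have : IsScalarTower ℂ F E := .of_algebraMap_eq fun c => (lin c).symm
  let M := (algebraicClosure F E).restrictScalars ℂ
  let ρ' : F →+* M := ρ.codRestrict M fun a => (algebraicClosure F E).algebraMap_mem a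
  let _ := ρ'.toAlgebra
  have lin' : ∀ c, ρ' (algebraMap ℂ F c) = algebraMap ℂ M c := fun c => Subtype.ext (lin c)
  have : IsScalarTower ℂ F M := .of_algebraMap_eq fun c => (lin' c).symm
  have : IsScalarTower F M E := .of_algebraMap_eq fun _ => rfl
  have : Algebra.IsAlgebraic F M := ⟨fun x => (isAlgebraic_algebraMap_iff
    (algebraMap M E).injective).1 (mem_algebraicClosure_iff.1 x.2)⟩
  have hM : FF M 2 := by
    obtain ⟨r, -, hr⟩ := Gm.ff_sub hE M
    have e := trdeg_add_eq ℂ F (A := M)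
    rw [hF.trdeg, hr.trdeg, trdeg_eq_zero, add_zero] at e
    obtain rfl : 2 = r := by exact_mod_cast e
    exact hr
  have := hM.ess
  have := Algebra.EssFiniteType.of_comp ℂ F M
  have : FiniteDimensional F M := Algebra.finite_of_essFiniteType_of_isAlgebraic
  refine ⟨M, ρ', Module.finrank F M, fun f hf => mem_algebraicClosure_iff.2 (hf.restrictScalars F),
    hM, rfl, (Cst.of_lin lin').ok hF hM, Module.finrank_pos, fun h c =>
      Api.pb.deg 2 F M hF hM (fun _ => h) (fun _ => hy.isb 1 F hF h c) fun _ _ => c, fun e => ?_⟩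
  obtain ⟨u⟩ := Module.nonempty_algEquiv_iff_finrank_eq_one.2 e
  exact ⟨u.restrictScalars ℂ⟩

variable {K : Type} [Field K] [Algebra ℂ K] {L : IntermediateField ℂ K} {Y G A Z F : BD K}
  {R : BD L} {Q : Pl K} {D : Pl L}

theorem vert (hT : Mm.TRM) (hK : FF K 4) (hL : FF L 3) (t : Term 3 Y G) (q : QF 3 Y) (s : Smp R)
    (d : Dsc Y (pb (inc L) R)) (o : On 3 Y Q) (l : Lies (inc L) Q D) (oD : On 2 R D) (sA : Smp A)
    (oA : On 3 A Q) (dZ : Dsc (pb (inc L) R) Z) (le : A ≤ Z - G) (eq : A Q = (Z - G) Q)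
    (dF : Dsc (pb (inc L) R) F) (F0 : 0 ≤ F) (FQ : 0 < F Q) :
    ∃ (M : IntermediateField ℂ Q.κ) (k n : ℕ), 0 < k ∧ 0 < n ∧
      cf Q ![G, pb (inc L) R, pb (inc L) R] = -(k * n) * vol 2 (res D R) ∧
      (k = 1 → Nonempty (D.κ ≃ₐ[ℂ] M)) ∧ (n = 1 → Ruled M) ∧
      ∀ (L₀ : IntermediateField ℂ Q.κ) (w : L₀), Ruled L₀ → 0 ≤ cn L₀ 2 + dv w → M = L₀ := by
  have hE := Gm.ff_κ Q hK
  have hD := Gm.ff_κ D hL
  obtain ⟨M, ρ, k, cM, hM, eρ, ok, k0, vk, iso⟩ :=
    stein hD hE l.κ (Gx.rd_lin l.isRd fun _ => rfl)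
  have sh := hy.res_smp hL D s
  have v0 : 0 < vol 2 (res D R) := oD
  have sH := ok.smp sh
  have bH : Big (pb ρ (res D R)) := (big_iff_vol hM sH.nef).2 (by
    rw [vk _ sh.car]; exact mul_pos (Nat.cast_pos.2 k0) v0)
  have e1 : res Q (pb (inc L) R) - pb (inc M) (pb ρ (res D R)) ∈ Prn Q.κ := by
    rw [← (hE.ok_sub M).pb_comp, eρ]
    exact (Api.pb.rst 2 3 L K _ hL hK (fun _ => rfl) Q D _ l l.isRd R s.car).1
  obtain ⟨C, _, _, ψ, g₀⟩ := gen_ex _ _ hE M cM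
  have g : GFd 2 1 M ψ := ⟨g₀, hE, hM⟩
  have hC := g.ff
  have sR := dZ.smp
  have car : ∀ β, pb ψ (res Q β) ∈ Car C := fun β => g.ok.car (In.res_car Q β)
  have z : ∀ β, Dsc (pb (inc L) R) β → I1 (pb ψ (res Q β)) = 0 := fun β b => Cv.I1_prn hC
    (Dp.pb_prn hC g.toExt (hy.res_smp hK Q sR) ((fld_congr e1).le.trans (fld_pb_le hE cM _))
      (hy.res_dsc hK Q b))
  have nn : ∀ β ∈ Car K, 0 ≤ β → β Q = 0 → 0 ≤ I1 (pb ψ (res Q β)) := fun β a b c =>
    Cv.I1_nonneg (pb_nonneg ψ (res'.nn 3 K hK Q β a b c))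
  have sub : ∀ β ∈ Car K, ∀ γ ∈ Car K,
      I1 (pb ψ (res Q (β - γ))) = I1 (pb ψ (res Q β)) - I1 (pb ψ (res Q γ)) := fun β a γ b => by
    rw [hy.res_sub hK Q a b, pb_sub, Cv.I1_sub hC (car _) (car _)]
  have on : ∀ x : Pl C, ∃ w, On 2 (res Q Y) w ∧ ∀ β, pb ψ β x = β w := fun x => by
    obtain ⟨a, b, -⟩ := g2 2 1 _ C M ψ g
    obtain ⟨w, hw⟩ := a x
    exact ⟨w, (((Api.g6 2 1 _ C M ψ g _ sH bH).2.2.2 _ (hy.res_smp hK Q t.smp)
      ((hy.res_dsc hK Q d).congr (by simpa using neg_mem e1))).2.2 0 x w rfl hw).1 (Cv.on0 _ x),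
      (b x w hw).2.2.1⟩
  have cG := t.hull.1.car
  have iG : pb ψ (res Q G) ∈ CarZ C := (Cv.carZ_iff hC).2 ⟨car G, fun x => by
    obtain ⟨w, a, b⟩ := on x
    rw [b]
    exact Ea.trm_on hy fld' hT hK t t.hull.1 (fun P p => by
      rw [t.hull.2 P p]; exact (Api.mod.isb 3 K hK).2.2 P) Q w a⟩
  have neg : I1 (pb ψ (res Q G)) < 0 := by
    have a := nn _ (sub_mem (sub_mem dZ.car cG) sA.car) (sub_nonneg.2 le) (by
      rw [Pi.sub_apply, eq, sub_self])
    have b := (Cv.big_iff hC (car A)).1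
      (Gx.big_pb g.ok g.gen ((res'.on 3 K hK A Q sA).1 oA))
    rw [sub _ (sub_mem dZ.car cG) _ sA.car, sub _ dZ.car _ cG, z Z dZ] at a
    linarith
  obtain ⟨y, hy'⟩ := Cv.I1_int hC iG
  obtain ⟨n, rfl⟩ : ∃ n : ℕ, y = -n := by
    rw [hy'] at neg
    exact ⟨(-y).toNat, by have : y < 0 := by exact_mod_cast neg
                          omega⟩
  have g0 : pg C 1 = 0 := by
    obtain ⟨β, -, u⟩ := q Q o
    have cW := add_mem cG u.1.car
    have w : ∀ P, On 3 Y P → dsc 4 (G + β) P = -Q.δ P := fun P p => by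
      rw [dsc, Pi.sub_apply, Pi.add_apply, t.hull.2 P p, u.2 P p, sub_add_cancel_left]
    have bd := a3 2 K hK Y Q t.smp t.big o _ (t.hull.1.add u.1)
      (fun P p => by rw [w P p]; exact neg_nonpos.2 (Q.δ_nonneg P)) (by rw [w Q o, Pl.δ_self])
    obtain ⟨f, -, e⟩ := g4 2 1 _ _ _ ψ g
    obtain ⟨a, b, -⟩ := a1 3 K hK Q _ cW
    have dW := (d.trans dF).sub (u.1.smul (F Q))
    have c := nn _ dW.car (Api.neg.nn 3 K hK Y _ t.smp t.big dW fun P p => by
      rw [Pi.sub_apply, Pi.smul_apply, u.2 P p, smul_eq_mul]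
      by_cases k : P = Q
      · rw [k, Pl.δ_self, mul_one, sub_self]
      · rw [Pl.δ_ne k, mul_zero, sub_zero]
        exact F0 P).1 (by rw [Pi.sub_apply, Pi.smul_apply, u.2 Q o, Pl.δ_self]; simp)
    rw [sub _ dF.car _ (u.1.smul _).car, z F dF, res'.smul 3 K hK Q _ _ u.1.car, pb_smul,
      Cv.I1_smul] at c
    refine Cv.g0_of_le hC (add_mem (g.ok.car a) (dv_mem_Car f)) (fun x => ?_) ?_
    · obtain ⟨w, a, b⟩ := on x
      rw [e, Pi.add_apply, Pi.add_apply, b, b]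
      exact add_le_add_left (sub_nonpos.1 (bd w a)) _
    · have := Cv.I1_prn hC (g.ok.prn b)
      rw [pb_sub, Cv.I1_sub hC (g.ok.car a) (car _), res'.add 3 K hK Q _ cG _ u.1.car, pb_add,
        Cv.I1_add hC (car _) (car _)] at this
      rw [Cv.I1_add hC (g.ok.car a) (dv_mem_Car f), Cv.I1_dv hC]
      nlinarith
  refine ⟨M, k, n, k0, ?_, ?_, iso, fun e => rulq g3 g g0 (β := -res Q G)
    (by rw [pb_neg]; exact neg_mem iG) (by rw [pb_neg, Cv.I1_neg, hy', e]; norm_num),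
    fun L₀ w a b => rulu Cb.gd a b g g0⟩
  · rw [hy'] at neg
    have : (0 : ℝ) < n := by simpa using neg
    exact_mod_cast this
  · have := Api.g5 2 1 _ C M ψ g ![res Q G] (fun _ => pb ρ (res D R))
      (fun i e => (e (by omega)).elim) fun _ => sH.car
    have e2 : (fun i => pb ψ (![res Q G] i)) = ![pb ψ (res Q G)] := by
      funext i; fin_cases i; rfl
    rw [e2] at this
    refine (Gx.I_congr Api.int Api.mod hE (β := ap 1 ![res Q G] fun _ : Fin 2 =>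
      pb (inc M) (pb ρ (res D R))) (fun i => ?_) fun i => ?_).trans (this.trans ?_)
    · fin_cases i
      exacts [In.res_car Q G, (hE.ok_sub M).car sH.car, (hE.ok_sub M).car sH.car]
    · fin_cases i
      exacts [(sub_self (res Q G)).symm ▸ zero_mem _, e1, e1]
    · change vol 2 _ * I1 _ = _
      rw [vk _ sh.car, hy']
      push_cast
      ring

end Vale.Agent.P287D.D2
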