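import Vale.Agent.P287D.Dp.Sf
import Vale.Agent.P287D.Gf.One
import Vale.Agent.P287D.Iso.Int
import Vale.Agent.P287D.Ba.Hy

/-!
# P287D, block DP2: uniqueness of the generic fibre, transport of the potentials
-/

set_option linter.unusedSectionVars false

open Set Polynomial

noncomputable section

namespace Vale.Agent.P287D.D2

open Dp Sf

theorem root_mem {L C Ω : Type} [Field L] [Field C] [IsAlgClosed C] [Field Ω] (ι : C →+* Ω)
    (j : L →+* C) {p : L[X]} (p0 : p ≠ 0) {x : Ω} (hx : p.eval₂ (ι.comp j) x = 0) :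
    x ∈ range ι := by
  let _ := ι.toAlgebra
  exact Gf.mem_range ⟨p.map j, (Polynomial.map_ne_zero_iff j.injective).2 p0, by
    rw [aeval_def, eval₂_map]; exact hx⟩

variable {K K' K'' : Type} [Field K] [Algebra ℂ K] [Field K'] [Algebra ℂ K'] [Field K'']
  [Algebra ℂ K''] {L : IntermediateField ℂ K} {φ : K →+* K'} {φ' : K →+* K''}

theorem comp_j (h : Ext L φ) : (algebraMap ℂ K').comp h.j = φ.comp (algebraMap L K) :=
  RingHom.ext h.j_spec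

/-- **GFU**: two geometric generic fibres are isomorphic -/
theorem gfu (h : GF L φ) (h' : GF L φ') : ∃ θ : K' →+* K'', Semi θ ∧ θ.comp φ = φ' := by
  let u := algebraMap K'' (AlgebraicClosure K'')
  let _ : Algebra K K' := φ.toAlgebra
  let _ : Algebra K (AlgebraicClosure K'') := (u.comp φ').toAlgebra
  have : Algebra.IsAlgebraic K K' := ⟨fun x =>
    let ⟨p, a, b⟩ := h.poly x
    ⟨p, a.ne_zero, b⟩⟩
  let t : K' →ₐ[K] AlgebraicClosure K'' := IsAlgClosed.lift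
  have t1 : ∀ f, t (φ f) = u (φ' f) := t.commutes
  have t2 : ∀ c, t (algebraMap ℂ K' c) ∈ range (u.comp (algebraMap ℂ K'')) := fun c => by
    obtain ⟨p, p0, hp⟩ := h.alg c
    refine root_mem _ h'.toExt.j p0 ?_
    have := congrArg t hp
    rw [map_zero, ← RingHom.coe_coe, hom_eval₂] at this
    rw [RingHom.comp_assoc, comp_j, ← this]
    exact congrArg (eval₂ · _ p) (RingHom.ext fun a => (t1 a).symm)
  have t3 : ∀ x, t x ∈ u.fieldRange := fun x => by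
    have le : Subfield.closure (range φ ∪ range (algebraMap ℂ K')) ≤
        u.fieldRange.comap (t : K' →+* _) := Subfield.closure_le.2 (by
      rintro _ (⟨f, rfl⟩ | ⟨c, rfl⟩)
      · exact ⟨_, (t1 f).symm⟩
      · exact let ⟨d, hd⟩ := t2 c; ⟨_, hd⟩)
    exact le (h.gen ▸ Subfield.mem_top x)
  let θ : K' →+* K'' := (u.rangeRestrictFieldEquiv.symm : _ →+* K'').comp
    ((t : K' →+* _).codRestrict u.fieldRange t3)
  have e : ∀ x, u (θ x) = t x := fun x =>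
    congrArg Subtype.val (u.rangeRestrictFieldEquiv.apply_symm_apply _)
  have e1 : θ.comp φ = φ' := RingHom.ext fun f => u.injective ((e _).trans (t1 f))
  have e2 : ∀ c, ∃ c', θ (algebraMap ℂ K' c') = algebraMap ℂ K'' c := fun c => by
    obtain ⟨p, p0, hp⟩ := h'.alg c
    refine root_mem (θ.comp (algebraMap ℂ K')) h.toExt.j p0 ?_
    rw [RingHom.comp_assoc, comp_j, ← RingHom.comp_assoc, e1, hp]
  refine ⟨θ, ⟨fun x => ?_, fun c => ?_, e2⟩, e1⟩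
  · have le : Subfield.closure (range φ' ∪ range (algebraMap ℂ K'')) ≤ θ.fieldRange :=
      Subfield.closure_le.2 (by
        rintro _ (⟨f, rfl⟩ | ⟨c, rfl⟩)
        · exact ⟨φ f, e1 ▸ rfl⟩
        · exact let ⟨d, hd⟩ := e2 c; ⟨_, hd⟩)
    exact le (h'.gen ▸ Subfield.mem_top x)
  · obtain ⟨d, hd⟩ := t2 c
    exact ⟨d, u.injective (hd.trans (e _).symm)⟩

section tr

variable {θ : K' →+* K''} (s : Semi θ)
include s

/-- the conjugate automorphism -/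
def cj (σ : K' ≃+* K') : K'' ≃+* K'' := s.e.symm.trans (σ.trans s.e)

theorem cj_apply (σ : K' ≃+* K') (x : K') : cj s σ (θ x) = θ (σ x) :=
  congrArg (fun y => θ (σ y)) (s.inv_apply x)

theorem cj_sur (τ : K'' ≃+* K'') : ∃ σ, cj s σ = τ :=
  ⟨s.e.trans (τ.trans s.e.symm), RingEquiv.ext fun x => by simp [cj]⟩

theorem cj_gal {σ : K' ≃+* K'} : cj s σ ∈ Gal (θ.comp φ) ↔ σ ∈ Gal φ :=
  forall_congr' fun f => by
    rw [RingHom.comp_apply, cj_apply]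
    exact θ.injective.eq_iff

theorem pb_cj (h : GF L φ) {σ : K' ≃+* K'} (hσ : σ ∈ Gal φ) (β : BD K') :
    pb (cj s σ : K'' →+* K'') (pb θ β) = pb θ (pb (σ : K' →+* K') β) := by
  have e : (cj s σ : K'' →+* K'') = θ.comp ((σ : K' →+* K').comp s.inv) := rfl
  rw [e, s.ok.pb_comp, (h.semi hσ).ok.pb_comp, s.inv_pb]

theorem styp_tr {S : Cls} {H : Set (K' ≃+* K')} {H' : Set (K'' ≃+* K'')}
    (e : ∀ σ, cj s σ ∈ H' ↔ σ ∈ H) (k : STyp S L φ H) : STyp S L (θ.comp φ) H' := by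
  obtain ⟨M, a, b, ι, j, h, e', k⟩ := k
  refine ⟨M, a, b, ι, θ.comp j, fun x => congrArg θ (h x), ?_, k⟩
  rw [RingHom.coe_comp, range_comp, e']
  refine Subset.antisymm ?_ ?_
  · rintro _ ⟨_, ⟨⟨c, rfl⟩, hc⟩, rfl⟩
    refine ⟨s.cst c, fun τ hτ => ?_⟩
    obtain ⟨σ, rfl⟩ := cj_sur s τ
    rw [cj_apply, hc σ ((e σ).1 hτ)]
  · rintro _ ⟨⟨c, rfl⟩, hc⟩
    obtain ⟨c', hc'⟩ := s.tsc c
    refine ⟨_, ⟨⟨c', rfl⟩, fun σ hσ => θ.injective ?_⟩, hc'⟩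
    rw [← cj_apply s, hc', hc _ ((e σ).2 hσ)]

theorem num_cj (h : GF L φ) {σ : K' ≃+* K'} (hσ : σ ∈ Gal φ) (β γ : BD K') :
    Num (pb (cj s σ : K'' →+* K'') (pb θ β) - pb θ γ) ↔ Num (pb (σ : K' →+* K') β - γ) := by
  rw [pb_cj s h hσ, ← pb_sub, s.num]

theorem nuG_tr (hK : FF K' 2) (h : GF L φ) {S : Cls} {X k : BD K'} (n : NuG S L φ X k) :
    NuG S L (θ.comp φ) (pb θ X) (pb θ k) := by
  obtain ⟨a, f, b, c, d, e, t⟩ := n
  have I := s.I2 In.hy hK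
  refine ⟨by rwa [I], pb θ f, s.carZ.2 b, s.dsc.2 c, by rwa [I], by rwa [I],
    styp_tr s (fun σ => ?_) t⟩
  exact ⟨fun ⟨x, y⟩ => ⟨(cj_gal s).1 x, (num_cj s h ((cj_gal s).1 x) f f).1 y⟩,
    fun ⟨x, y⟩ => ⟨(cj_gal s).2 x, (num_cj s h x f f).2 y⟩⟩

theorem nuQ_tr (ax : Ax) (hK : FF K' 2) (h : GF L φ) {S : Cls} {L₃ : IntermediateField ℂ K}
    (n : NuQ S L L₃ φ) : NuQ S L L₃ (θ.comp φ) := by
  obtain ⟨X, k, f, e, c, t⟩ := n
  have I := s.I2 In.hy hK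
  have hK' := s.ff hK
  have kc := s.car.2 (ax.kC hK c.term)
  have nu : Num (s.tw 2 k - pb θ k) := .of_prn (s.tw_prn 2 k)
  have J : ∀ γ ∈ Car K', I2 (s.tw 2 k) (pb θ γ) = I2 k γ := fun γ hγ => by
    rw [ax.congr_l hK' kc nu (s.car.2 hγ), I]
  refine ⟨pb θ X, s.tw 2 k, pb θ f, fun i => pb θ (e i), ⟨(s.term In.hy hK).2 c.term,
    fun τ hτ => ?_, ?_, s.carZ.2 c.car, s.smp.2 c.smp, s.dsc.2 c.des, by rw [I, c.sq],
    by rw [J f c.smp.car, c.kf], fun a ha => ?_,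
    fun i => ⟨s.carZ.2 (c.ecar i).1, s.dsc.2 (c.ecar i).2⟩, fun i j => by rw [I, c.ee],
    fun i => by rw [J _ (CarZ.car (c.ecar i).1), c.ke], fun i => by rw [I, c.fe], fun i => ?_, ?_,
    s.ampOn_neg_tw.2 c.amp⟩, styp_tr s (fun σ => ?_) t⟩
  · obtain ⟨σ, rfl⟩ := cj_sur s τ
    rw [pb_cj s h ((cj_gal s).1 hτ)]
    exact s.ampOn.2 (c.inv σ ((cj_gal s).1 hτ))
  · rw [ax.congr_r hK' _ kc nu, J k (ax.kC hK c.term), c.deg]
  · rw [s.fld]
    exact s.map_mem_sub.2 (c.base a ha)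
  · obtain ⟨σ, hσ, n⟩ := c.swap i
    exact ⟨cj s σ, (cj_gal s).2 hσ, by rw [← pb_sub]; exact (num_cj s h hσ _ _).2 n⟩
  · obtain ⟨z, a, b, x, y, w⟩ := c.sec
    exact ⟨pb θ z, s.carZ.2 a, s.dsc.2 b, by rw [I, x], by rw [I, y], by rw [J z (CarZ.car a), w]⟩
  · simp only [stQ, Fixes, mem_ofPred_eq, cj_gal]
    refine and_congr_right fun hσ => ?_
    rw [← pb_sum, ← pb_smul, ← pb_sub θ, num_cj s h hσ, num_cj s h hσ]

end tr

theorem nuG_congr (ax : Ax) (hK : FF K' 2) {S : Cls} {X k k' : BD K'} (c : k ∈ Car K')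
    (e : Num (k' - k)) (n : NuG S L φ X k) : NuG S L φ X k' := by
  obtain ⟨a, f, b, d, x, y, t⟩ := n
  have c' : k' ∈ Car K' := by simpa using add_mem e.car c
  exact ⟨by rwa [ax.congr_l hK c e c', ax.congr_r hK _ c e], f, b, d, x,
    by rwa [ax.congr_l hK c e (CarZ.car b)], t⟩

/-- the potential of a del Pezzo fibration on a given generic fibre -/
theorem pot2_iff (ax : Ax) (h : GFd 2 2 L φ) {S : Cls} {Λ B Γ : BD K} (e : fld B = L)
    (c : Γ ∈ Car K) (g : K') : Pot2 S Λ B Γ ↔ NuG S L φ (pb φ Λ) (pb φ Γ - dv g) := by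
  subst e
  have ok := h.toExt.ok h.ff
  have p : pb φ Γ - (pb φ Γ - dv g) ∈ Prn K' := by simpa using dv_mem_Prn g
  refine ⟨fun ⟨K₁, _, _, φ₁, f, h₁, a, b⟩ => ?_, fun n => ?_⟩
  · obtain ⟨θ, s, rfl⟩ := gfu h₁ h.toGF
    have := nuG_tr s (s.ff_iff.1 h.ff) h₁ (X := pb φ₁ Λ) (k := pb φ₁ Γ) ⟨a, f, b⟩
    rw [← s.ok.pb_comp, ← s.ok.pb_comp] at this
    exact nuG_congr ax h.ff (ok.car c) (.of_prn (by simpa using neg_mem p)) this
  · obtain ⟨a, f, b⟩ := nuG_congr ax h.ff (sub_mem (ok.car c) (dv_mem_Car g)) (.of_prn p) n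
    exact ⟨K', _, _, φ, f, h.toGF, a, b⟩

/-- the potential of a conic bundle on a given generic fibre -/
theorem pot3_iff (ax : Ax) (h : GFd 2 2 L φ) {S : Cls} {L₃ : IntermediateField ℂ K}
    (le : L ≤ L₃) : Pot3' S L L₃ ↔ NuQ S L L₃ φ := by
  refine ⟨fun ⟨_, _, _, K₁, _, _, φ₁, X, k, f, e, h₁, a⟩ => ?_, fun ⟨X, k, f, e, a⟩ =>
    ⟨le, h.toExt.cld, h.fl, K', _, _, φ, X, k, f, e, h.toGF, a⟩⟩
  obtain ⟨θ, s, rfl⟩ := gfu h₁ h.toGF
  exact nuQ_tr s ax (s.ff_iff.1 h.ff) h₁ ⟨X, k, f, e, a⟩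

end Vale.Agent.P287D.D2
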