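import Vale.Agent.P287D.Dp.Rk
import Vale.Agent.P287D.D2.Rul
import Vale.Agent.P287D.Gf.Des
import Vale.Agent.P287D.Lk.Dim
import Vale.Agent.P287D.Va.Fld

/-!
# P287D, block DP2: the generic fibre of a link over a surface
-/

set_option linter.unusedSectionVars false

open Set

noncomputable section

namespace Vale.Agent.P287D.D2

open Dp Sf

variable {K K' : Type} [Field K] [Algebra ℂ K] [Field K'] [Algebra ℂ K']
  {L : IntermediateField ℂ K} {φ : K →+* K'}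

/-- a weak del Pezzo pair without boundary on the smooth surface `X` makes `K_X ^ 2` positive -/
theorem sq_pos (ax : Ax) (hK : FF K 2) {X k Γ : BD K} (hX : Term 1 X k) (n : Nef (-Γ))
    (b : Big (-Γ)) (e : ∀ P, On 1 X P → Γ P = cn K 2 P) : 0 < I2 k k := by
  have R := ax.rows K hK
  have c : Γ ∈ Car K := by simpa using neg_mem n.car
  have kc := ax.kC hK hX
  obtain ⟨x, -, hx⟩ := hX.hull.1.exists_add
  have le : k - Γ ≤ 0 := ax.neg.neg 1 K hK X (k - Γ) x hX.smp hX.big (sub_mem kc c)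
    (by rw [sub_eq_add_neg, add_right_comm]; exact (hx x le_rfl).nef.add n)
    fun P o => by rw [Pi.sub_apply, hX.hull.2 P o, e P o, sub_self]
  have h1 : I2 k k = I2 Γ k :=
    ax.I2_tr hK hX.smp (ax.kD hK hX) fun P o => (hX.hull.2 P o).trans (e P o).symm
  have h2 : 0 ≤ I2 (Γ - k) (-Γ) := (R.nn_nef n).I2_nonneg fun P _ => by
    have := le P
    simp only [Pi.sub_apply, Pi.zero_apply] at this ⊢
    linarith
  have h3 : 0 < I2 (-Γ) (-Γ) := vol2 (-Γ) ▸ (ax.vol.big 2 K hK _ n).1 b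
  rw [R.neg_l (R.isb _ c) (neg_mem c), R.neg_r (R.isb _ c) c] at h3
  rw [R.neg_r (R.isb _ (sub_mem c kc)) c, R.sub_l (R.isb _ c) (R.isb _ kc) c] at h2
  rw [h1, R.symm _ c _ kc]
  linarith

/-- the data of a generic fibre -/
structure Cx (L : IntermediateField ℂ K) (φ : K →+* K') (R : BD K) (H : BD L) (g : K') :
    Prop where
  ax : Ax
  gf : GFd 2 2 L φ
  ne : g ≠ 0
  can : cn K' 2 + dv g = pb φ (cn K 4)
  smp : Smp H
  big : Big H
  prn : R - pb (inc L) H ∈ Prn K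

theorem exists_cx (ax : Ax) (hK : FF K 4) {R : BD K} (s : Smp R) (d : dim R = 2)
    (h : GF (fld R) φ) : ∃ H g, Cx (fld R) φ R H g := by
  have h' : GFd 2 2 (fld R) φ := ⟨h, hK, d ▸ ax.fld.ff 4 K hK R⟩
  obtain ⟨H, a, b, c⟩ := ax.fld.down 4 K hK R s
  obtain ⟨f, f0, e⟩ := ax.g4 2 2 K K' _ φ h'
  exact ⟨H, f⁻¹, ax, h', inv_ne_zero f0, by rw [e, dv_inv, add_neg_cancel_right], a, b, c⟩

namespace Cx

variable {R Λ Γ A β : BD K} {H : BD L} {g : K'} (h : Cx L φ R H g) {P : Pl K'} {Q : Pl K}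
include h

theorem lies (P : Pl K') : ∃ Q, Lies φ P Q := (h.ax.g2 2 2 K K' L φ h.gf).1 P

theorem hor (l : Lies φ P Q) : Hor L Q := ((h.ax.g2 2 2 K K' L φ h.gf).2.1 P Q l).1

theorem val (l : Lies φ P Q) (β : BD K) : pb φ β P = β Q :=
  ((h.ax.g2 2 2 K K' L φ h.gf).2.1 P Q l).2.2.1 β

theorem des (d : Dsc Λ R) : Dsc Λ (pb (inc L) H) := d.congr (by simpa using neg_mem h.prn)

theorem on (d : Dsc Λ R) (l : Lies φ P Q) : On 1 (pb φ Λ) P ↔ On 3 Λ Q :=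
  ((h.ax.g6 2 2 K K' L φ h.gf H h.smp h.big).2.2.2 Λ d.smp (h.des d)).2.2 1 P Q rfl l

theorem dim (d : Dsc Λ R) : dim Λ = 2 + dim (pb φ Λ) :=
  ((h.ax.g6 2 2 K K' L φ h.gf H h.smp h.big).2.2.2 Λ d.smp (h.des d)).1

theorem fld (d : Dsc Λ R) (f : K) : φ f ∈ fld (pb φ Λ) ↔ f ∈ fld Λ :=
  ((h.ax.g6 2 2 K K' L φ h.gf H h.smp h.big).2.2.2 Λ d.smp (h.des d)).2.1 f

theorem big_pb (c : β ∈ Car K) (b : Big β) : Big (pb φ β) :=
  ((h.ax.g6 2 2 K K' L φ h.gf H h.smp h.big).2.1 β c).2 ⟨0, by simpa using b⟩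

theorem dsc (Γ : BD K) : dsc 2 (pb φ Γ - dv g) = pb φ (dsc 4 Γ) := by
  rw [P287D.dsc, P287D.dsc, pb_sub, ← h.can]
  abel

theorem pb_base (H : BD L) : pb φ (pb (inc L) H) = 0 := by
  rw [← h.gf.ok.pb_comp]
  funext P
  refine Trv.pb (fun a => ?_) H
  obtain ⟨c, hc⟩ := h.gf.cst a a.2
  exact (show φ a ∈ P.ring from hc ▸ P.con c)

theorem pb_prn : pb φ R ∈ Prn K' := by
  simpa [pb_sub, h.pb_base] using h.gf.ok.prn h.prn

theorem term (d : Dsc Λ R) (t : Term 3 Λ Γ) : Term 1 (pb φ Λ) (pb φ Γ - dv g) where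
  smp := h.gf.ok.smp t.smp
  big := h.big_pb t.smp.car t.big
  hull := ⟨(h.gf.ok.dsc t.hull.1).sub (.dv (h.gf.ok.smp t.smp) g), fun P o => by
    obtain ⟨Q, l⟩ := h.lies P
    rw [Pi.sub_apply, h.val l, t.hull.2 Q ((h.on d l).1 o), ← h.val l (cn K _), ← h.can,
      Pi.add_apply, add_sub_cancel_right]⟩
  pos P o := by
    obtain ⟨Q, l⟩ := h.lies P
    rw [h.dsc, h.val l]
    exact t.pos Q (mt (h.on d l).2 o)

theorem md (d : Dsc Λ R) (t : Term 3 Λ Γ) : Md φ (pb φ Λ) (pb φ Γ - dv g) where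
  term := h.term d t
  stb σ hσ P P' l := by
    obtain ⟨Q, l'⟩ := h.lies P'
    have e : (σ : K' →+* K').comp φ = φ := RingHom.ext hσ
    rw [h.on d l', h.on d (e ▸ l.comp l')]
  inv := ⟨g, h.ne, by rw [sub_add_cancel]; exact h.gf.inv_pb Γ⟩

theorem gv (d : Dsc Λ R) (t : Term 3 Λ Γ) (s : Smp A) (b : Big A) (nn : 0 ≤ P287D.dsc 4 (R - A))
    (z : ∀ Q, On 3 Λ Q → P287D.dsc 4 (R - A) Q = 0) : GV L φ (pb φ Λ) (pb φ Γ - dv g) := by
  have e : -(pb φ (R - A) - dv g) - pb φ A ∈ Prn K' := by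
    have := sub_mem (dv_mem_Prn g) h.pb_prn
    rw [pb_sub]
    convert this using 1
    abel
  have n := ((h.gf.ok.smp s).congr e).nef
  have b' := (h.big_pb s.car b).congr e
  have z' : ∀ P, On 1 (pb φ Λ) P → P287D.dsc 2 (pb φ (R - A) - dv g) P = 0 := fun P o => by
    obtain ⟨Q, l⟩ := h.lies P
    rw [h.dsc, h.val l, z Q ((h.on d l).1 o)]
  have T := h.term d t
  refine ⟨h.md d t, h.gf, h.gf.ff, ⟨_, _, T.smp, T.big, by simpa using neg_mem n.car,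
    fun P o => (z' P o).le, fun P => ?_, n, b'⟩,
    sq_pos h.ax h.gf.ff T n b' fun P o => (sub_eq_zero.1 (z' P o)).symm⟩
  rw [h.dsc]
  exact neg_one_lt_zero.trans_le (pb_nonneg φ nn P)

theorem sdB {B : BD K} (m : MFS 3 Λ B Γ) (d : Dsc B R) (e : P287D.dim B = 3)
    (tr : ¬ P287D.fld B ≤ L) (rk : ∀ β ∈ Car K', Det (pb φ Λ) β → Inv φ β →
      ∃ x y : ℝ, Num (β - x • (pb φ Γ - dv g) - y • pb φ B)) :
    SdB (P287D.fld B) φ (pb φ Λ) (pb φ Γ - dv g) (pb φ B) := by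
  have hK := h.gf.ff
  have T := h.term (m.des.trans d) m.term
  have s := h.gf.ok.smp m.smp
  have d1 : P287D.dim (pb φ B) = 1 := by have := h.dim d; omega
  have nd := fun j => h.ax.fld.nd 2 K' hK (pb φ B) (pb φ Λ) j s T.smp.nef T.big
  have e1 : (fun i : Fin 2 => if i.1 < 1 then pb φ B else pb φ Λ) = ![pb φ B, pb φ Λ] := by
    funext i; fin_cases i <;> simp
  have e2 : (fun i : Fin 2 => if i.1 < 2 then pb φ B else pb φ Λ) = ![pb φ B, pb φ B] := by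
    funext i; fin_cases i <;> simp
  have n1 := nd 1 one_le_two
  have n2 := nd 2 le_rfl
  rw [e1, d1] at n1
  rw [e2, d1] at n2
  obtain ⟨c, hc⟩ := m.neg
  obtain ⟨a, ha, ha'⟩ := SetLike.not_le_iff_exists.1 tr
  refine ⟨s, h.gf.ok.dsc m.des, h.gf.inv_pb B, h.gf.inv_pb Λ, le_antisymm (not_lt.1 fun k => ?_)
    ((h.ax.rows K' hK).eff_nn s.eff ((h.ax.rows K' hK).isb _ s.car)
      ((h.ax.rows K' hK).nn_smp s)), fun k => ?_, fun a => (h.fld d a).symm,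
    ⟨a, ha, fun ⟨z, hz⟩ => nc_map h.gf.toExt ha' z hz.symm⟩,
    ⟨c, (h.gf.ok.ampOn hc).congr ?_⟩, rk⟩
  · exact absurd (n2.1 k) (by norm_num)
  · exact (n1.2 le_rfl).ne' (h.ax.num_l hK k T.smp.car)
  · rw [pb_sub, pb_smul, sub_sub_sub_cancel_left, sub_sub_cancel]
    exact dv_mem_Prn g

end Cx

/-- surfaces below a fourfold of Fano type have no canonical section -/
def PG0 : Prop := ∀ (K : Type) [Field K] [Algebra ℂ K] (L : IntermediateField ℂ K), FF K 4 →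
  FT K 3 → Cld L → FF L 2 → pg L 2 = 0

/-- **TRF** -/
theorem trf_of (ax : Ax) (p0 : PG0) : TRF := by
  intro K _ _ hK hF R A Λ B Γ E h dR
  refine ⟨p0 K _ hK hF (cld_fld R) (dR ▸ ax.fld.ff 4 K hK R), fun K' _ _ φ hφ => ?_⟩
  obtain ⟨H, g, c⟩ := exists_cx ax hK h.smp dR hφ
  refine ⟨g, c.ne, fun i => ?_⟩
  have m := h.mfs i
  have d := m.des.trans (h.down i)
  obtain ⟨d1, d2, d3, d4⟩ := Lk.dim_of ax.fld K hK R A Λ B Γ E h i
  have gv := c.gv d m.term h.nef h.big h.nn fun Q o => (h.zero i Q).2 (Or.inl o)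
  have on : (∀ Q, E i = some Q → ¬ Hor (fld R) Q) →
      ∀ P, On 1 (pb φ (Λ i)) P ↔ pb φ (dsc 4 (R - A)) P = 0 := fun k P => by
    obtain ⟨Q, l⟩ := c.lies P
    rw [c.on d l, c.val l, h.zero i Q]
    exact (or_iff_left fun e => k Q e (c.hor l)).symm
  refine ⟨fun e => ?_, fun k => ?_, fun Q e hQ => ?_⟩
  · have e0 : ∀ Q, E i ≠ some Q := fun Q k => by have := (d4 Q k).1; omega
    have tr : ¬ fld (B i) ≤ fld R := fun k => by
      have := (Lk.ff_le k (ax.fld.ff 4 K hK _) (ax.fld.ff 4 K hK _)).1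
      omega
    exact ⟨gv, c.sdB m (h.down i) e tr (ax.rkB hK c.gf hF h.smp m (h.down i)
      (h.fib i (Option.eq_none_iff_forall_ne_some.2 e0)) tr g), on fun Q k => (e0 Q k).elim⟩
  · have : dim (B i) ≠ 3 := fun e => k (Or.inl e)
    exact ⟨gv, ax.rk1 hK c.gf hF h.smp m (h.down i) (d3 (by omega)).ge g,
      on fun Q e o => k (Or.inr ⟨Q, e, o⟩)⟩
  · obtain ⟨a, Y, ΓY, x⟩ := h.ext i Q e
    have z : ∀ Q', dsc 4 (R - A) Q' = 0 ↔ On 3 (Λ i) Q' ∨ Q' = Q := fun Q' => by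
      rw [h.zero i Q', e, Option.some_inj, eq_comm]
    refine ⟨⟨_, _, c.gv (x.des.trans d) x.term h.nef h.big h.nn
      fun Q' o => (z Q').2 ((x.on Q').1 o), fun P => ?_⟩, fun Y' hY => ⟨c.term d m.term, hQ,
        fun P => ?_, fun P l o => x.off ((c.on d l).1 o),
        ax.rk1 hK c.gf hF h.smp m (h.down i) a.fld_eq.ge g⟩⟩
    · obtain ⟨Q', l⟩ := c.lies P
      rw [c.on (x.des.trans d) l, c.val l, z, x.on]
    · obtain ⟨Q', l⟩ := c.lies P
      rw [hY, c.on d l, c.val l, z]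
      exact or_congr_right ⟨fun k => k ▸ l, fun k => l.uniq k⟩

end Vale.Agent.P287D.D2
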