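import Vale.Agent.P287D.D2.Tf
import Vale.Agent.P287D.Dp.St2

/-!
# P287D, block DP2: the row `TRF2`
-/

open Set

noncomputable section

namespace Vale.Agent.P287D.D2

open Dp Sf

/-- **TRF2** -/
theorem trf2 (ax : Ax) : TRF2 := by
  intro K _ _ hK hF R A Λ B Γ E h dR K' _ _ φ hφ
  obtain ⟨H, g, c⟩ := exists_cx ax hK h.smp dR hφ
  refine ⟨g, c.ne, fun i => ?_⟩
  have m := h.mfs i
  have d := m.des.trans (h.down i)
  obtain ⟨d1, d2, d3, d4⟩ := Lk.dim_of ax.fld K hK R A Λ B Γ E h i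
  have gv := c.gv d m.term h.nef h.big h.nn fun Q o => (h.zero i Q).2 (Or.inl o)
  have on : (∀ Q, E i = some Q → ¬ Hor (fld R) Q) →
      ∀ P, On 1 (pb φ (Λ i)) P ↔ pb φ (dsc 4 (R - A)) P = 0 := fun k P => by
    obtain ⟨Q, l⟩ := c.lies P
    rw [c.on d l, c.val l, h.zero i Q]
    exact (or_iff_left fun e => k Q e (c.hor l)).symm
  refine ⟨fun e => ?_, fun k => ?_, fun Q e hQ => ?_⟩
  · have e0 : ∀ Q, E i ≠ some Q := fun Q k => by have := (d4 Q k).1; omega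
    have tr : ¬ fld (B i) ≤ fld R := fun k => by
      have := (Lk.ff_le k (ax.fld.ff 4 K hK _) (ax.fld.ff 4 K hK _)).1
      omega
    exact ⟨gv, c.sdB m (h.down i) e tr (ax.rkB hK c.gf hF h.smp m (h.down i)
      (h.fib i (Option.eq_none_iff_forall_ne_some.2 e0)) tr g), on fun Q k => (e0 Q k).elim⟩
  · have : dim (B i) ≠ 3 := fun e => k (Or.inl e)
    exact ⟨gv, ax.rk1 hK c.gf hF h.smp m (h.down i) (d3 (by omega)).ge g,
      on fun Q e o => k (Or.inr ⟨Q, e, o⟩)⟩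
  · obtain ⟨a, Y, ΓY, x⟩ := h.ext i Q e
    have z : ∀ Q', dsc 4 (R - A) Q' = 0 ↔ On 3 (Λ i) Q' ∨ Q' = Q := fun Q' => by
      rw [h.zero i Q', e, Option.some_inj, eq_comm]
    refine ⟨⟨_, _, c.gv (x.des.trans d) x.term h.nef h.big h.nn
      fun Q' o => (z Q').2 ((x.on Q').1 o), fun P => ?_⟩, fun Y' hY => ⟨c.term d m.term, hQ,
        fun P => ?_, fun P l o => x.off ((c.on d l).1 o),
        ax.rk1 hK c.gf hF h.smp m (h.down i) a.fld_eq.ge g⟩⟩
    · obtain ⟨Q', l⟩ := c.lies P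
      rw [c.on (x.des.trans d) l, c.val l, z, x.on]
    · obtain ⟨Q', l⟩ := c.lies P
      rw [hY, c.on d l, c.val l, z]
      exact or_congr_right ⟨fun k => k ▸ l, fun k => l.uniq k⟩

end Vale.Agent.P287D.D2
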